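import Vale.Agent.P352Z.P352X.R.BB.Flux
import Vale.Agent.P352Z.P352X.R.IB.K0
import Vale.Agent.P352Z.P352X.R.SCH.Dom

open Vale.Agent.P352G

/-!
# P352X, row SW: thin plateaus are weakly null on the form domain of `P_b`
-/

noncomputable section

open MeasureTheory Filter Topology Complex Set
open scoped ComplexConjugate SchwartzMap ENNReal

namespace Vale.Agent.P352X.Swp

open Vale.Agent.P352 Vale.Agent.P352.GF Vale.Agent.P352.BW Vale.Agent.P352.H755
open SN (Bd)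
open BX.Flux
open UniformSpace (Completion)

variable {D : Type*} [NormedAddCommGroup D] [InnerProductSpace ℂ D] [GrD D] {c : CtxZ D}
  {ell : (V → ℂ) → Completion D} {c0 : ℝ} {γ : P3 → ℂ} {θ φ : ℝ → ℝ} {w : Completion D}

variable (c) in
/-- the form domain of `P_b` -/
def FdZ (w : Completion D) : Prop := ∫⁻ p, ENNReal.ofReal (1 + |al p|) ∂c.nu w ≠ ∞

lemma fd_qbZ (h : BASZ c) {N : ℝ} (hw : c.qb w ≤ ENNReal.ofReal (N ^ 2)) : FdZ c w :=
  ((qb_intZ h (N := ‖w‖ + |N|) ⟨le_add_of_nonneg_right (abs_nonneg _), hw.trans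
    (ENNReal.ofReal_le_ofReal (by
      nlinarith [sq_abs N, norm_nonneg w, abs_nonneg N]))⟩).trans_lt ENNReal.ofReal_lt_top).ne

lemma fd_dmZ (hw : Dm (Pb c.Q) w) : FdZ c w := by
  have h := (SN.Calc.dom_iff_lintegral (by fun_prop)).1 (c.cgn_Pb.1 hw.gn).1
  refine ((lintegral_mono (g := fun p => 2 + ENNReal.ofReal (‖(al p : ℂ)‖ ^ 2))
    fun p => ?_).trans_lt ?_).ne
  · simp only [← ENNReal.ofReal_ofNat 2, ← ENNReal.ofReal_add zero_le_two (sq_nonneg _), norm_real,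
      Real.norm_eq_abs]
    exact ENNReal.ofReal_le_ofReal (by nlinarith [sq_nonneg (|al p| - 1)])
  · rw [lintegral_add_left measurable_const, lintegral_const]
    exact ENNReal.add_lt_top.2 ⟨ENNReal.mul_lt_top (by simp) (measure_lt_top _ _), h⟩

lemma wt_leZ (he : EllZ c ell c0) (hγ : MemLp γ 2 m3) (hθ : Tst θ) : ∃ K : ℝ, 0 ≤ K ∧ ∀ a, 0 < a →
    ∫⁻ p, ENNReal.ofReal (ms a p) ∂c.nu (Tht ell γ (dil a θ)) ≤ ENNReal.ofReal (K ^ 2) := by
  set F : ℝ → ℝ := fun t => (1 + t ^ 2) ^ 2 * ‖ft1 (cx θ) t‖ ^ 2 with hF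
  have i1 : Integrable F := int1 (Ap.dc_cx hθ)
  refine ⟨√(9 * c0 * (∫ k in Pp, k.1 ^ 2 * ‖γ k‖ ^ 2) * (8 * ∫ t, F t)), Real.sqrt_nonneg _,
    fun a ha => ?_⟩
  have hg : Bd fun p => ((√(ms a p) : ℝ) : ℂ) := ⟨by have := ms_meas a; fun_prop, √(1 + a⁻¹),
    fun p => by
      rw [norm_real, Real.norm_of_nonneg (Real.sqrt_nonneg _)]
      have h1 : (1 + |al p|)⁻¹ ≤ 1 := inv_le_one_of_one_le₀ (le_add_of_nonneg_right (abs_nonneg _))
      exact Real.sqrt_le_sqrt (add_le_add h1 (mul_le_of_le_one_right (inv_pos.2 ha).le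
        (pow_le_one₀ (by positivity) h1)))⟩
  have l2 := Sch.psi_l2 hγ (Sch.fn1_of_tst (Ib.tst_dil hθ ha))
  have h := SN.Calc.lintegral_sq (SN.Calc.Dom.of_bd (C := c.bt.toCalc) hg (Tht ell γ (dil a θ)))
  simp only [norm_real, Real.norm_eq_abs, sq_abs, Real.sq_sqrt (ms_pos ha _).le] at h
  refine h.trans_le (ENNReal.ofReal_le_ofReal (le_trans ?_ (Real.sq_sqrt' ▸ le_max_left _ _)))
  rw [SN.Calc.Psi_bd hg, Sch.Tht_eq, map_smul, he.phi _ _ hg l2]
  refine Ib.ell_leZ he (Sch.l2_mul hg l2) (Ib.int_m3 hγ) fun k hk => ?_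
  have j := ((i1.comp_mul_left' ha.ne').const_mul a).const_mul (k.1 ^ 2 * ‖γ k‖ ^ 2 * 8)
  refine (integral_mono_of_nonneg (.of_forall fun _ => sq_nonneg _) j.integrableOn
    ((ae_restrict_mem measurableSet_Ioi).mono fun t (ht : 0 < t) => ?_)).trans
    ((setIntegral_le_integral j (.of_forall fun _ => by positivity)).trans_eq ?_)
  · have h0 : t ≤ 1 + |al (pc k t)| := by
      rw [al_pc]
      linarith [le_abs_self (t + d2 k.2 k.2 / (2 * k.1)), Th.sh_nonneg hk, Th.sh.eq_1 k]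
    have h1 : (1 + |al (pc k t)|)⁻¹ * t ≤ 1 := by rwa [inv_mul_le_iff₀ (by positivity), mul_one]
    have h2 : ms a (pc k t) * t ^ 2 * a ≤ 2 * (1 + (a * t) ^ 2) ^ 2 := by
      have h3 := mul_le_mul_of_nonneg_left h1 (mul_pos ha ht).le
      have h4 := pow_le_one₀ (n := 2) (by positivity) h1
      have : ms a (pc k t) * t ^ 2 * a = a * t * ((1 + |al (pc k t)|)⁻¹ * t) +
          ((1 + |al (pc k t)|)⁻¹ * t) ^ 2 := by
        rw [ms]
        field_simp
      nlinarith [sq_nonneg (a * t - 1), sq_nonneg ((a * t) ^ 2), sq_nonneg (a * t)]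
    have h5 := mul_le_mul_of_nonneg_left h2
      (show 0 ≤ 4 * a * (k.1 ^ 2 * ‖γ k‖ ^ 2) * ‖ft1 (cx θ) (a * t)‖ ^ 2 by positivity)
    simp only [Sch.psi, be_pc, pm_pc, mu_pc' _ hk.ne', Sch.ft1_dil' ha]
    simp only [mu_pc _ hk.ne', norm_mul, mul_pow, norm_real, Real.norm_eq_abs, sq_abs,
      Real.sq_sqrt (ms_pos ha _).le, hF]
    refine (le_of_eq ?_).trans (h5.trans_eq ?_) <;> ring
  · rw [integral_const_mul, integral_const_mul, Measure.integral_comp_mul_left F, smul_eq_mul,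
      abs_of_pos (inv_pos.2 ha), mul_inv_cancel_left₀ ha.ne', mul_assoc]

/-- **weak nullity** -/
theorem wzZ (he : EllZ c ell c0) (hγ : MemLp γ 2 m3) (hθ : Tst θ) (hw : FdZ c w) :
    Tendsto (fun a => inner ℂ w (Tht ell γ (dil a θ))) (𝓝[>] 0) (𝓝 0) := by
  obtain ⟨K, K0, hK⟩ := wt_leZ he hγ hθ
  have l : Tendsto (fun s => ∫⁻ p, ENNReal.ofReal (ms s p)⁻¹ ∂c.nu w) (𝓝[>] 0)
      (𝓝 (∫⁻ _, 0 ∂c.nu w)) := by
    refine tendsto_lintegral_filter_of_dominated_convergence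
      (fun p => ENNReal.ofReal (1 + |al p|))
      (.of_forall fun s => (ms_meas s).inv.ennreal_ofReal) ?_ hw (.of_forall fun p => ?_)
    · filter_upwards [self_mem_nhdsWithin] with s hs
      exact .of_forall fun p => ENNReal.ofReal_le_ofReal (ms_le hs p)
    · rw [← ENNReal.ofReal_zero]
      refine ENNReal.tendsto_ofReal (squeeze_zero' (g := fun s => s * (1 + |al p|) ^ 2) ?_ ?_ ?_)
      · filter_upwards [self_mem_nhdsWithin] with s hs using (inv_pos.2 (ms_pos hs p)).le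
      · filter_upwards [self_mem_nhdsWithin] with s hs using ms_le' hs p
      · exact (Continuous.tendsto' (f := fun s : ℝ => s * (1 + |al p|) ^ 2) (by fun_prop) 0 0
          (zero_mul _)).mono_left nhdsWithin_le_nhds
  rw [lintegral_zero] at l
  refine NormedAddGroup.tendsto_nhds_zero.2 fun ε hε => ?_
  have d : 0 < ε / (K + 1) := by positivity
  filter_upwards [self_mem_nhdsWithin, l.eventually (ge_mem_nhds
    (ENNReal.ofReal_pos.2 (pow_pos d 2)))] with s hs h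
  rw [norm_inner_symm]
  refine (pair c.bt.toCalc (ms_meas s) (ms_pos hs) K0 d.le (hK s hs) h).trans_lt ?_
  rw [← mul_div_assoc, div_lt_iff₀ (by positivity)]
  nlinarith

/-- the same for `Kt Θ(∂_al f) Ω`, `f` below the plane -/
theorem wz_ktZ (t : T3Z c) (he : EllZ c ell c0) (hγ : MemLp γ 2 m3) (hθ : Tst θ) {f : Fn}
    (hf : IsTest f) {b1 b2 : ℝ} (hb : b2 < 0)
    (hs : tsupport (dv va f) ⊆ {z | b1 ≤ be z ∧ be z ≤ b2}) :
    Tendsto (fun a => inner ℂ (gen c.Sk (c.Th (dv va f))) (Tht ell γ (dil a θ))) (𝓝[>] 0) (𝓝 0) := by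
  obtain ⟨F, hF⟩ := Ap.test_dv va hf
  obtain ⟨m, C, hC⟩ := t.kd.slab b1 b2 (.inl hb)
  obtain ⟨m', C', hC'⟩ := t.a2.slab b1 b2 hb
  have hs' : tsupport F ⊆ {z | b1 ≤ be z ∧ be z ≤ b2} := by rwa [← hF] at hs
  have h1 := ((hC va vb F hs').1.gn.smul 2).sub
    (Gn.sum Finset.univ fun i _ => (hC (ex i) (ex i) F hs').1.gn)
  rw [← Sch.Th_eqZ t.grp ⟨F, rfl⟩, hF] at h1
  have m := fun i => Ap.test_Mc i (Ap.test_Mc i hf)
  have z := fun h k => wzZ he hγ hθ (fd_qbZ t.bas (hC' h k F hs'))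
  have z' := fun i => wzZ he hγ hθ (fd_dmZ (t.gen.uth vb _ (m i)).dm)
  rw [eq_sub_of_add_eq (t.kt.split _ h1.dm).1.symm, h1.gen_eq,
    (Ib.gn_K0Z t.grp t.gen t.kt hf).gen_eq]
  simp only [fun i => (t.gen.mith i _ (Ap.test_Mc i hf)).gen_eq, Fin.sum_univ_two, inner_sub_left,
    inner_add_left, inner_smul_left]
  rw [hF] at z
  simpa only [mul_zero, add_zero, sub_zero] using (((z va vb).const_mul (conj 2)).sub
    ((z (ex 0) (ex 0)).add (z (ex 1) (ex 1)))).sub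
    (((z' 0).const_mul (conj I)).add ((z' 1).const_mul (conj I)))

end Vale.Agent.P352X.Swp

end
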